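import Vale.Agent.P110.Synth
import Vale.Agent.P110.Round

namespace Vale.Agent.Results.P110.Ultraflat

open Vale.Agent.P110

theorem result : ∀ c : ℝ, 0 < c → ∀ N₀ : ℕ, ∃ N : ℕ, N₀ ≤ N ∧ ∃ ε : Fin N → ℝ,
    (∀ k, ε k = 1 ∨ ε k = -1) ∧ ∀ z : ℂ, ‖z‖ = 1 →
      (1 - c) * Real.sqrt N ≤ ‖∑ k : Fin N, (ε k : ℂ) * z ^ (k : ℕ)‖ ∧
      ‖∑ k : Fin N, (ε k : ℂ) * z ^ (k : ℕ)‖ ≤ (1 + c) * Real.sqrt N := by
  intro c hc N₀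
  obtain ⟨e, he, h⟩ := to_signs hc
  obtain ⟨N, h1, h2, a, h3, h4⟩ := flat_real he N₀
  obtain ⟨x, h5, h6⟩ := h N h2 a h3 h4
  refine ⟨N, h1, fun k => x k, fun k => h5 k, fun z hz => ?_⟩
  obtain ⟨θ, rfl⟩ := exists_ee hz
  have := abs_le.1 (h6 θ)
  simp only [ee_pow]
  rw [Fin.sum_univ_eq_sum_range (fun k => (x k : ℂ) * ee (k * θ)) N]
  constructor <;> linarith [this.1, this.2]

end Vale.Agent.Results.P110.Ultraflat
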